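import Vale.Agent.P092GD.Nim
import Mathlib.MeasureTheory.Group.Integral
import Mathlib.MeasureTheory.Integral.Bochner.Set
import Mathlib.MeasureTheory.Function.LocallyIntegrable

/-!
P092, block GD (helper73): bump functions which are Lipschitz for the matrix gauge.
-/

set_option linter.all false

open Filter Topology Set MeasureTheory

namespace Vale.Agent.P092GD

open Vale.Agent.P092GK Vale.Agent.P092GK.FlD

variable {k : Type} [NontriviallyNormedField k] {G : Type} [Group G] {r : ℕ} {F : FlD k G r}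

theorem cut_gam {δ : ℝ} (h0 : 0 < δ) (h1 : δ ≤ 1) {v : G} (hv : gam F v ≤ 1) (x : G) :
    |cut δ (gam F (v⁻¹ * x)) - cut δ (gam F x)| ≤
      {x | gam F x ≤ 3}.indicator (fun _ => 16 / δ * gam F v) x := by
  have e1 := gam_mul (F := F) v⁻¹ x
  have e2 := gam_mul (F := F) v (v⁻¹ * x)
  rw [gam_inv] at e1
  rw [mul_inv_cancel_left] at e2
  have e3 := gam_nonneg (F := F) v
  have e4 := gam_nonneg (F := F) x
  have e5 := gam_nonneg (F := F) (v⁻¹ * x)
  by_cases hx : gam F x ≤ 3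
  · rw [indicator_of_mem (s := {x | gam F x ≤ 3}) hx]
    refine (cut_lip h0 _ _).trans ?_
    have e6 : gam F (v⁻¹ * x) ≤ 7 := by nlinarith
    have e7 : |gam F (v⁻¹ * x) - gam F x| ≤ 8 * gam F v := abs_le.2 ⟨by nlinarith, by nlinarith⟩
    calc _ ≤ 2 / δ * (8 * gam F v) := by gcongr
      _ = _ := by ring
  · rw [indicator_of_notMem (s := {x | gam F x ≤ 3}) hx, cut_zero h0 (s := gam F x) (by linarith),
      cut_zero h0 (by nlinarith), sub_self, abs_zero]

variable [TopologicalSpace G] [IsTopologicalGroup G] [T2Space G] [ProperSpace k] (h : Fl F)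
include h

/-- **bumps** -/
theorem bump [MeasurableSpace G] [BorelSpace G] (μ : Measure G) [μ.IsHaarMeasure] :
    ∃ (C : ℝ) (D : ℕ), 1 ≤ C ∧ ∀ δ, 0 < δ → δ ≤ 1 → ∃ χ : G → ℝ, Continuous χ ∧
      HasCompactSupport χ ∧ (∀ x, 0 ≤ χ x) ∧ ∫ x, χ x ∂μ = 1 ∧ (∀ x, χ x ≠ 0 → gam F x ≤ δ) ∧
      (∀ x, χ x ≤ C / δ ^ D) ∧ ∀ v, ∫ x, |χ (v⁻¹ * x) - χ x| ∂μ ≤ C / δ ^ D * gam F v := by
  obtain ⟨c, D, hc, H⟩ := vol_low h μ
  have hm : ∀ R, MeasurableSet {x | gam F x ≤ R} := fun R =>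
    (isClosed_le (cont_gam h) continuous_const).measurableSet
  have hfin : ∀ R, μ {g | gam F g ≤ R} ≠ ⊤ := fun R => (cpt_gam h R).measure_lt_top.ne
  have hM : 0 ≤ μ.real {x | gam F x ≤ 3} := measureReal_nonneg
  refine ⟨2 + 2 ^ D / c * (1 + 16 * μ.real {x | gam F x ≤ 3}), D + 1,
    by have : 0 ≤ 2 ^ D / c * (1 + 16 * μ.real {x | gam F x ≤ 3}) := by positivity
       linarith, fun δ h0 h1 => ?_⟩
  have hψ : Continuous fun x => cut δ (gam F x) := (cont_cut δ).comp (cont_gam h)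
  have hs : ∀ x, cut δ (gam F x) ≠ 0 → gam F x ≤ δ := fun x hx =>
    not_lt.1 fun e => hx (cut_zero h0 e.le)
  have hcs : HasCompactSupport fun x => cut δ (gam F x) :=
    HasCompactSupport.of_support_subset_isCompact (cpt_gam h δ) hs
  have hi : Integrable (fun x => cut δ (gam F x)) μ := hψ.integrable_of_hasCompactSupport hcs
  have hZ : c * (δ / 2) ^ D ≤ ∫ x, cut δ (gam F x) ∂μ := by
    refine (H (δ / 2) (by positivity) (by linarith)).trans ?_
    rw [← integral_indicator_one (hm _)]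
    refine integral_mono ((integrable_indicator_iff (hm _)).2 (integrableOn_const (hfin _))) hi
      fun x => ?_
    by_cases hx : gam F x ≤ δ / 2
    · rw [indicator_of_mem (s := {x | gam F x ≤ δ / 2}) hx]; exact (cut_one h0 hx).ge
    · rw [indicator_of_notMem (s := {x | gam F x ≤ δ / 2}) hx]; exact cut_nonneg _ _
  have hZ0 : 0 < ∫ x, cut δ (gam F x) ∂μ := lt_of_lt_of_le (by positivity) hZ
  generalize hZ' : ∫ x, cut δ (gam F x) ∂μ = Z at hZ hZ0
  have hδ : δ ^ (D + 1) ≤ δ ^ D := pow_le_pow_of_le_one h0.le h1 D.le_succ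
  have hδ1 : δ ^ (D + 1) ≤ 1 := pow_le_one₀ h0.le h1
  have hδ0 : 0 < δ ^ (D + 1) := by positivity
  have hZ1 : Z⁻¹ * δ ^ D ≤ 2 ^ D / c := by
    rw [inv_mul_le_iff₀ hZ0, ← mul_div_assoc, le_div_iff₀ hc]
    rw [div_pow, ← mul_div_assoc, div_le_iff₀ (by positivity)] at hZ
    linarith
  have hZ2 : 0 ≤ Z⁻¹ := by positivity
  have hP : 0 ≤ 2 ^ D / c := by positivity
  refine ⟨fun x => Z⁻¹ * cut δ (gam F x), continuous_const.mul hψ, hcs.mul_left,
    fun x => mul_nonneg hZ2 (cut_nonneg _ _), by rw [integral_const_mul, hZ', inv_mul_cancel₀ hZ0.ne'],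
    fun x hx => hs x (right_ne_zero_of_mul hx), fun x => ?_, fun v => ?_⟩
  · rw [le_div_iff₀ hδ0]
    have e1 : Z⁻¹ * cut δ (gam F x) * δ ^ (D + 1) ≤ Z⁻¹ * 1 * δ ^ D := by
      gcongr; exact cut_le _ _
    nlinarith [mul_nonneg hP hM]
  simp only [← mul_sub, abs_mul, abs_of_nonneg hZ2, integral_const_mul]
  have hg := gam_nonneg (F := F) v
  rcases le_total (gam F v) 1 with hv | hv
  · have e1 : ∫ x, |cut δ (gam F (v⁻¹ * x)) - cut δ (gam F x)| ∂μ ≤
        μ.real {x | gam F x ≤ 3} * (16 / δ * gam F v) := by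
      rw [← smul_eq_mul, ← integral_indicator_const _ (hm 3)]
      exact integral_mono ((hi.comp_mul_left v⁻¹).sub hi).abs
        ((integrable_indicator_iff (hm _)).2 (integrableOn_const (hfin _))) (cut_gam h0 h1 hv)
    refine (mul_le_mul_of_nonneg_left e1 hZ2).trans ?_
    rw [show Z⁻¹ * (μ.real {x | gam F x ≤ 3} * (16 / δ * gam F v)) =
      Z⁻¹ * δ ^ D * (16 * μ.real {x | gam F x ≤ 3}) / δ ^ (D + 1) * gam F v by field_simp; ring]
    gcongr
    nlinarith [mul_le_mul_of_nonneg_right hZ1 hM]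
  · have e1 : ∫ x, |cut δ (gam F (v⁻¹ * x)) - cut δ (gam F x)| ∂μ ≤ Z + Z := by
      have e2 : ∫ x, cut δ (gam F (v⁻¹ * x)) ∂μ = Z :=
        (integral_mul_left_eq_self (fun x => cut δ (gam F x)) v⁻¹).trans hZ'
      conv_rhs => rw [← e2]; arg 2; rw [e2, ← hZ']
      rw [← integral_add (hi.comp_mul_left v⁻¹) hi]
      refine integral_mono ((hi.comp_mul_left v⁻¹).sub hi).abs ((hi.comp_mul_left v⁻¹).add hi)
        fun x => abs_le.2 ⟨?_, ?_⟩ <;>
        linarith [cut_nonneg δ (gam F x), cut_nonneg δ (gam F (v⁻¹ * x))]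
    refine (mul_le_mul_of_nonneg_left e1 hZ2).trans ?_
    rw [mul_add, inv_mul_cancel₀ hZ0.ne']
    refine le_trans ?_ (le_mul_of_one_le_right (by positivity) hv)
    rw [le_div_iff₀ hδ0]
    nlinarith [mul_nonneg hP hM]

end Vale.Agent.P092GD
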