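import Vale.Agent.P092GD.Bump
import Vale.Agent.P092ST.Defs

/-!
P092, block GD (helper73): the structures `Dyn` and `NIM` from the flag package.
-/

set_option linter.all false

open Filter Topology Set MeasureTheory

namespace Vale.Agent.P092GD

open Vale.Agent.P092GK Vale.Agent.P092GK.FlD Vale.Agent.P092ST

variable {k : Type} [NontriviallyNormedField k] {G : Type} [Group G] {r : ℕ} {F : FlD k G r}

/-- the distance to the unit -/
noncomputable def rho (F : FlD k G r) (g : G) : ℝ := Real.sqrt (gam F g)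

variable [TopologicalSpace G] [IsTopologicalGroup G] (h : Fl F)
include h

/-- the common kernel of the representations is central -/
theorem ker_central (hg : Subgroup.closure ((F.Up : Set G) ∪ F.Um) = ⊤) {z : G} (hz : W F z = 1) :
    z ∈ Subgroup.center G := by
  have h0 : ∀ j, F.V j z = 1 := fun j => congrFun hz j
  have h1 : z ∈ F.Z := h.P_inf_Pm (fun j _ => ⟨1, by rw [h0, one_smul]; rfl⟩)
    fun j _ => ⟨1, fun x => by rw [h0, one_mul]; rfl⟩
  have h2 : ∀ u j, F.V j (z * u * z⁻¹ * u⁻¹) = 1 := fun u j => by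
    have : F.V j z⁻¹ = 1 := by rw [← one_mul (F.V j z⁻¹), ← h0 j, ← map_mul, mul_inv_cancel, map_one, h0]
    rw [map_mul, map_mul, map_mul, h0, this, one_mul, mul_one, ← map_mul, mul_inv_cancel, map_one]
  rw [Subgroup.mem_center_iff]
  intro g
  have hg' : g ∈ Subgroup.closure ((F.Up : Set G) ∪ F.Um) := by rw [hg]; trivial
  have key : ∀ u, z * u * z⁻¹ * u⁻¹ = 1 → u * z = z * u := fun u e => by
    rw [mul_inv_eq_one, mul_inv_eq_iff_eq_mul] at e; exact e.symm
  induction hg' using Subgroup.closure_induction with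
  | mem u hu =>
    rcases hu with hu | hu
    · exact key u (h.up_inj _ (F.Up.mul_mem (h.zup z h1 u hu) (F.Up.inv_mem hu)) fun j x => by
        rw [h2]; rfl)
    · exact key u (h.um_inj _ (F.Um.mul_mem (h.zum z h1 u hu) (F.Um.inv_mem hu)) fun j => by
        rw [h2]; rfl)
  | one => simp
  | mul a b _ _ ha hb => rw [mul_assoc, hb, ← mul_assoc, ha, mul_assoc]
  | inv a _ ha => exact (Commute.inv_left ha).eq

variable [T2Space G] [ProperSpace k]

theorem gen_rate [LocallyCompactSpace G] {i : Fin r}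
    (hg : Subgroup.closure ((F.U {i} : Set G) ∪ F.U' {i}) = ⊤) : ∃ c : ℝ, 0 < c ∧
      ∀ Q : Set G, IsCompact Q → ∃ (m : ℕ) (R : ℝ), ∀ x ∈ Q, ∃ l : List (G × Bool),
        l.length ≤ m ∧ (l.map Prod.fst).prod = x ∧ ∀ a ∈ l, ∀ n : ℕ,
          rho F ((sg (F.b i) a.2 ^ n)⁻¹ * a.1 * sg (F.b i) a.2 ^ n) ≤ Real.exp (R - c * n) := by
  classical
  obtain ⟨C₁, c₁, hC₁, hc₁, H₁⟩ := contr h (F.b i)
  obtain ⟨C₂, c₂, hC₂, hc₂, H₂⟩ := contr h (F.b i)⁻¹
  refine ⟨min c₁ c₂ / 2, half_pos (lt_min hc₁ hc₂), fun Q hQ => ?_⟩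
  obtain ⟨m, hm⟩ := bdd_gen_U h hg hQ
  refine ⟨m, C₁ + C₂ + m + 1, fun x hx => ?_⟩
  obtain ⟨l, h1, h2, h3⟩ := hm x hx
  refine ⟨l.map fun u => (u, decide (u ∈ F.U {i})), by simp [h1], by simpa [Function.comp_def] using h2,
    fun a ha n => ?_⟩
  obtain ⟨u, hu, rfl⟩ := List.mem_map.1 ha
  have key : ∀ (g C c : ℝ), 1 ≤ C → C ≤ C₁ + C₂ → min c₁ c₂ ≤ c →
      g ≤ C * Real.exp (-(c * n)) * gam F u →
      Real.sqrt g ≤ Real.exp (C₁ + C₂ + m + 1 - min c₁ c₂ / 2 * n) := fun g C c e1 e2 e3 e4 => by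
    refine Real.sqrt_le_iff.2 ⟨(Real.exp_pos _).le, e4.trans ?_⟩
    have e5 : gam F u ≤ Real.exp (m + 1) := by
      have e6 := gam_le_len h u
      have e7 := Real.exp_le_exp.2 (h3 u hu).2
      have e8 := Real.add_one_le_exp (1 : ℝ)
      have e9 := Real.one_le_exp (Nat.cast_nonneg (α := ℝ) m)
      rw [Real.exp_add]; nlinarith
    have e6 : C ≤ Real.exp C := by linarith [Real.add_one_le_exp C]
    have e7 : (0 : ℝ) ≤ n := Nat.cast_nonneg n
    have e8 : (0 : ℝ) ≤ m := Nat.cast_nonneg m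
    calc _ ≤ Real.exp C * Real.exp (-(c * n)) * Real.exp (m + 1) := by
          have := gam_nonneg (F := F) u
          gcongr
      _ ≤ _ := by
          rw [← Real.exp_add, ← Real.exp_add, sq, ← Real.exp_add, Real.exp_le_exp]
          nlinarith
  by_cases hU : u ∈ F.U {i}
  · simp only [hU, decide_true, sg]
    exact key _ C₁ c₁ hC₁ (by linarith) (min_le_left _ _) (H₁ u (h.cb_single i ▸ hU) n)
  · simp only [hU, decide_false, sg]
    have hU' : Tendsto (fun n : ℕ => F.b i ^ n * u * (F.b i ^ n)⁻¹) atTop (𝓝 1) :=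
      h.cb_single i ▸ (h3 u hu).1.resolve_left hU
    exact key _ C₂ c₂ hC₂ (by linarith) (min_le_right _ _)
      (H₂ u (hU'.congr fun n => by rw [inv_pow, inv_inv]) n)

variable [LocallyCompactSpace G] [MeasurableSpace G] [BorelSpace G]

/-- **The dynamical data**, for the wall element `b i` and any family which commutes with it. -/
noncomputable def dyn' (μ : Measure G) [μ.IsHaarMeasure] {i : Fin r}
    (hg : Subgroup.closure ((F.U {i} : Set G) ∪ F.U' {i}) = ⊤) (hk : ∀ z, W F z = 1 → z = 1)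
    {p : ℕ} (hp : 0 < p) (f : Fin p → G) (hf : ∀ m, F.b i * f m = f m * F.b i) : Dyn G μ where
  ρ := rho F
  b := F.b i
  p := p
  F := f
  c := (gen_rate h hg).choose
  p_pos := hp
  c_pos := (gen_rate h hg).choose_spec.1
  ρ_nonneg v := Real.sqrt_nonneg _
  ρ_inv v := by rw [rho, rho, gam_inv]
  conj g := ⟨Real.exp (F.len g), fun v => by
    refine (Real.sqrt_le_sqrt (gam_conj h g v)).trans_eq ?_
    rw [Real.sqrt_mul (Real.exp_pos _).le, two_mul, Real.exp_add,
      Real.sqrt_mul_self (Real.exp_pos _).le, rho]⟩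
  small O hO := by
    obtain ⟨ε, h0, h1, H⟩ := h.near_aux (cpt_gam h 1) hO (gam F) (cont_gam h) fun u _ hu =>
      lt_of_le_of_ne (gam_nonneg u) fun e => hu (hk u (sub_eq_zero.1
        (norm_le_zero_iff.1 ((le_gam u).trans e.ge))))
    refine ⟨ε / 2, half_pos h0, fun v hv => ?_⟩
    have h2 := (Real.sqrt_le_iff.1 hv).2
    exact H v (show gam F v ≤ 1 by nlinarith) (by nlinarith)
  comm := hf
  gen := (gen_rate h hg).choose_spec.2
  bump := by
    obtain ⟨C, D, hC, H⟩ := bump h μ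
    refine ⟨C, D, fun δ h0 h1 => ?_⟩
    obtain ⟨χ, e1, e2, e3, e4, e5, -, e6⟩ := H (δ ^ 2) (by positivity) (pow_le_one₀ h0.le h1)
    refine ⟨χ, e1, e2, e3, e4, fun x hx => Real.sqrt_le_iff.2 ⟨h0.le, e5 x hx⟩,
      fun v => (e6 v).trans ?_⟩
    rw [mul_pow, rho, Real.sq_sqrt (gam_nonneg v), div_pow, ← pow_mul, ← pow_mul, mul_comm D 2]
    have := gam_nonneg (F := F) v
    gcongr
    nlinarith

/-- **`Dyn`** for a group with trivial centre generated by `U⁺` and `U⁻` -/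
noncomputable def dyn (μ : Measure G) [μ.IsHaarMeasure] {s : Fin r → G} {N : ℕ} {τ : ℕ → Fin r}
    {w : ℕ → G} (hP : Pan F s N τ w) (hg : Subgroup.closure ((F.Up : Set G) ∪ F.Um) = ⊤)
    (hc : Subgroup.center G = ⊥) (i : Fin r) {p : ℕ} (hp : 0 < p) (f : Fin p → G)
    (hf : ∀ m, F.b i * f m = f m * F.b i) : Dyn G μ :=
  dyn' h μ (gen_top h hP hg i) (fun z hz => Subgroup.mem_bot.1 (hc ▸ ker_central h hg hz)) hp f hf

/-- **`NIM`** -/
theorem nim [SecondCountableTopology G] : NIM G := by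
  obtain ⟨ι, _, f, g, L, hL, hm, hb, hH, hs⟩ := nim_core h
  let e := (Fintype.equivFin ι).symm
  refine ⟨Fintype.card ι, fun i => f (e i), fun i => g (e i), L, hL,
    fun i => ⟨hm _, ⟨1, hb _⟩, fun Q hQ ε hε => ?_⟩, fun x hx => ?_⟩
  · obtain ⟨R, -, hR⟩ := h.len_cpt hQ
    obtain ⟨L', h1, h2⟩ := hH (e i) ε R hε
    exact ⟨L', h1, fun x hx s hs => h2 x hx s (hR s hs)⟩
  · exact (hs x hx).trans_eq (e.sum_comp fun i => f i ((g i)⁻¹ * x) - f i x).symm

end Vale.Agent.P092GD
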