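import Vale.Agent.P092GK.Pair
import Vale.Agent.P092GK.PanD
import Mathlib.MeasureTheory.Measure.Haar.Basic
import Mathlib.MeasureTheory.Measure.Real

/-!
P092, block GD (helper73): the matrix gauge, exponential contraction and small volumes.
-/

set_option linter.all false

open Filter Topology Set MeasureTheory

namespace Vale.Agent.P092GD

open Vale.Agent.P092GK Vale.Agent.P092GK.FlD

/-- pointwise decay of the powers is exponential decay -/
theorem exp_decay {k X : Type} [NontriviallyNormedField k] [CompleteSpace k] [NormedAddCommGroup X]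
    [NormedSpace k X] [FiniteDimensional k X] (T : X →L[k] X) : ∃ C c : ℝ, 1 ≤ C ∧ 0 < c ∧
      ∀ x, Tendsto (fun n : ℕ => (T ^ n) x) atTop (𝓝 0) →
        ∀ n : ℕ, ‖(T ^ n) x‖ ≤ C * Real.exp (-(c * n)) * ‖x‖ := by
  let W : Submodule k X :=
    { carrier := {x | Tendsto (fun n : ℕ => (T ^ n) x) atTop (𝓝 0)}
      add_mem' := fun {x y} hx hy => by
        have := Tendsto.add hx hy
        rw [add_zero] at this
        exact this.congr fun n => (map_add _ _ _).symm
      zero_mem' := by simpa using tendsto_const_nhds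
      smul_mem' := fun a x hx => by
        have := Tendsto.const_smul hx a
        rw [smul_zero] at this
        exact this.congr fun n => (map_smul _ _ _).symm }
  have hW : ∀ x ∈ W, ∀ m : ℕ, (T ^ m) x ∈ W := fun x hx m => by
    have := (tendsto_add_atTop_iff_nat m).2 hx
    exact this.congr fun n => by rw [pow_add]; rfl
  let bs := Module.finBasis k W
  obtain ⟨B, hB, hBl⟩ := bs.exists_opNorm_le (F := X)
  have hev : ∀ᶠ n : ℕ in atTop, ∀ i, ‖(T ^ n) (bs i : X)‖ ≤ 1 / (2 * B) := by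
    refine eventually_all.2 fun i => ?_
    have h1 : Tendsto (fun n : ℕ => ‖(T ^ n) (bs i : X)‖) atTop (𝓝 0) :=
      tendsto_zero_iff_norm_tendsto_zero.1 (bs i).2
    exact h1.eventually (ge_mem_nhds (by positivity))
  obtain ⟨N, hN, hN1⟩ := (hev.and (eventually_ge_atTop 1)).exists
  have hhalf : ∀ x ∈ W, ‖(T ^ N) x‖ ≤ 1 / 2 * ‖x‖ := fun x hx => by
    have h1 := hBl (u := (T ^ N).comp W.subtypeL) (M := 1 / (2 * B)) (by positivity) hN
    have h2 := ((T ^ N).comp W.subtypeL).le_opNorm ⟨x, hx⟩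
    have h3 : B * (1 / (2 * B)) = 1 / 2 := by field_simp
    rw [h3] at h1
    exact h2.trans (mul_le_mul_of_nonneg_right h1 (norm_nonneg _))
  have hN0 : (0 : ℝ) < N := by exact_mod_cast hN1
  have hT : 1 ≤ 1 + ‖T‖ := by linarith [norm_nonneg T]
  have hP : 1 ≤ (1 + ‖T‖) ^ N := one_le_pow₀ hT
  have he : Real.exp (-(Real.log 2 / N * N)) = 1 / 2 := by
    rw [div_mul_cancel₀ _ hN0.ne', Real.exp_neg, Real.exp_log two_pos, one_div]
  have hl : 0 < Real.log 2 / N := div_pos (Real.log_pos one_lt_two) hN0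
  refine ⟨2 * (1 + ‖T‖) ^ N, Real.log 2 / N, by linarith, hl, fun x hx n => ?_⟩
  have key : ∀ n : ℕ, ∀ x ∈ W,
      ‖(T ^ n) x‖ ≤ 2 * (1 + ‖T‖) ^ N * Real.exp (-(Real.log 2 / N * n)) * ‖x‖ := by
    intro n
    induction n using Nat.strong_induction_on with
    | _ n ih =>
      intro x hx
      rcases lt_or_ge n N with hn | hn
      · have h1 : ∀ m : ℕ, ‖(T ^ m) x‖ ≤ (1 + ‖T‖) ^ m * ‖x‖ := by
          intro m
          induction m with
          | zero => simp
          | succ m ihm =>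
            rw [pow_succ', ContinuousLinearMap.mul_apply, pow_succ']
            calc _ ≤ ‖T‖ * ‖(T ^ m) x‖ := T.le_opNorm _
              _ ≤ (1 + ‖T‖) * ((1 + ‖T‖) ^ m * ‖x‖) := by gcongr; linarith
              _ = _ := by ring
        have h2 : (1 + ‖T‖) ^ n ≤ (1 + ‖T‖) ^ N := pow_le_pow_right₀ hT hn.le
        have h3 : 1 / 2 ≤ Real.exp (-(Real.log 2 / N * n)) := by
          rw [← he]
          have : (n : ℝ) ≤ N := by exact_mod_cast hn.le
          exact Real.exp_le_exp.2 (by nlinarith)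
        calc _ ≤ (1 + ‖T‖) ^ N * ‖x‖ := (h1 n).trans (by gcongr)
          _ = 2 * (1 + ‖T‖) ^ N * (1 / 2) * ‖x‖ := by ring
          _ ≤ _ := by gcongr
      · obtain ⟨m, rfl⟩ := Nat.exists_eq_add_of_le' hn
        rw [pow_add, ContinuousLinearMap.mul_apply]
        have h1 := ih m (by omega) _ (hW x hx N)
        have h2 : Real.exp (-(Real.log 2 / N * ((m + N : ℕ) : ℝ))) =
            Real.exp (-(Real.log 2 / N * m)) * (1 / 2) := by
          rw [← he, ← Real.exp_add]; push_cast; ring_nf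
        rw [h2]
        calc _ ≤ _ := h1
          _ ≤ 2 * (1 + ‖T‖) ^ N * Real.exp (-(Real.log 2 / N * m)) * (1 / 2 * ‖x‖) := by
            gcongr; exact hhalf x hx
          _ = _ := by ring
  exact key n x hx

/-- self-similar finite covers -/
theorem cover (k X : Type) [NontriviallyNormedField k] [NormedAddCommGroup X] [NormedSpace k X]
    [ProperSpace X] : ∃ (q : ℝ) (T : Finset X), 0 < q ∧ q < 1 ∧ ∀ (x : X) (n : ℕ),
      ∃ c : X → X, Metric.closedBall x (q ^ n) ⊆ ⋃ t ∈ T, Metric.closedBall (c t) (q ^ (n + 1)) := by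
  obtain ⟨p, hp0, hp1⟩ := NormedField.exists_norm_lt_one k
  obtain ⟨T, hT⟩ := (isCompact_closedBall (0 : X) 1).elim_finite_subcover
    (fun t : X => Metric.ball t ‖p‖) (fun _ => Metric.isOpen_ball)
    (fun y _ => mem_iUnion.2 ⟨y, Metric.mem_ball_self hp0⟩)
  refine ⟨‖p‖, T, hp0, hp1, fun x n => ⟨fun t => x + p ^ n • t, fun y hy => ?_⟩⟩
  have hp : p ^ n ≠ 0 := pow_ne_zero _ (norm_pos_iff.1 hp0)
  have hpn : 0 < ‖p‖ ^ n := pow_pos hp0 n
  have h1 : (p ^ n)⁻¹ • (y - x) ∈ Metric.closedBall (0 : X) 1 := by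
    rw [mem_closedBall_zero_iff, norm_smul, norm_inv, norm_pow, inv_mul_le_iff₀ hpn, mul_one]
    rwa [Metric.mem_closedBall, dist_eq_norm] at hy
  obtain ⟨t, ht, h2⟩ := mem_iUnion₂.1 (hT h1)
  refine mem_iUnion₂.2 ⟨t, ht, ?_⟩
  rw [Metric.mem_ball, dist_eq_norm] at h2
  have h3 : y - (x + p ^ n • t) = p ^ n • ((p ^ n)⁻¹ • (y - x) - t) := by
    rw [smul_sub, smul_inv_smul₀ hp]; abel
  rw [Metric.mem_closedBall, dist_eq_norm, h3, norm_smul, norm_pow, pow_succ]
  gcongr

variable {k : Type} [NontriviallyNormedField k] {G : Type} [Group G] {r : ℕ} {F : FlD k G r}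

/-- the algebra of all the representations -/
abbrev Al (F : FlD k G r) : Type := ∀ j, F.E j →L[k] F.E j

/-- the sum of the representations -/
noncomputable def W (F : FlD k G r) : G →* Al F := MonoidHom.pi F.V

/-- the matrix gauge -/
noncomputable def gam (F : FlD k G r) (g : G) : ℝ := max ‖W F g - 1‖ ‖W F g⁻¹ - 1‖

theorem gam_nonneg (g : G) : 0 ≤ gam F g := (norm_nonneg _).trans (le_max_left _ _)

theorem gam_inv (g : G) : gam F g⁻¹ = gam F g := by rw [gam, gam, inv_inv, max_comm]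

theorem le_gam (g : G) : ‖W F g - 1‖ ≤ gam F g := le_max_left _ _

theorem gam_one : gam F 1 = 0 := by simp [gam]

theorem norm_one_le : ‖(1 : Al F)‖ ≤ 1 :=
  (pi_norm_le_iff_of_nonneg zero_le_one).2 fun j => ContinuousLinearMap.norm_id_le

theorem norm_W_le (g : G) : ‖W F g‖ ≤ 1 + gam F g := by
  have h1 : W F g = 1 + (W F g - 1) := by abel
  rw [h1]
  exact (norm_add_le _ _).trans (add_le_add norm_one_le (le_gam g))

theorem sub_mul_le (g g' : G) : ‖W F (g * g') - 1‖ ≤ gam F g + gam F g' + gam F g * gam F g' := by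
  have h1 : W F (g * g') - 1 = (W F g - 1) + W F g * (W F g' - 1) := by
    rw [map_mul, mul_sub, mul_one]; abel
  rw [h1]
  have h2 := norm_mul_le (W F g) (W F g' - 1)
  have h3 : ‖W F g‖ * ‖W F g' - 1‖ ≤ (1 + gam F g) * gam F g' :=
    mul_le_mul (norm_W_le g) (le_gam g') (norm_nonneg _) (by linarith [gam_nonneg (F := F) g])
  have h4 := norm_add_le (W F g - 1) (W F g * (W F g' - 1))
  linarith [le_gam (F := F) g]

theorem gam_mul (g g' : G) : gam F (g * g') ≤ gam F g + gam F g' + gam F g * gam F g' := by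
  refine max_le (sub_mul_le g g') ?_
  have := sub_mul_le (F := F) g'⁻¹ g⁻¹
  rw [gam_inv, gam_inv] at this
  rw [mul_inv_rev]
  linarith

theorem W_conj (a g : G) : W F a⁻¹ * (W F g - 1) * W F a = W F (a⁻¹ * g * a) - 1 := by
  rw [mul_sub, sub_mul, mul_one, ← map_mul, ← map_mul, ← map_mul, inv_mul_cancel, map_one]

variable [TopologicalSpace G] (h : Fl F)
include h

theorem cont_W : Continuous (W F) := continuous_pi h.contV

theorem norm_W_len (g : G) : ‖W F g‖ ≤ Real.exp (F.len g) :=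
  (pi_norm_le_iff_of_nonneg (Real.exp_pos _).le).2 fun j => h.norm_V_le g j

theorem gam_conj (a g : G) : gam F (a⁻¹ * g * a) ≤ Real.exp (2 * F.len a) * gam F g := by
  have key : ∀ g, ‖W F (a⁻¹ * g * a) - 1‖ ≤ Real.exp (2 * F.len a) * gam F g := fun g => by
    rw [← W_conj]
    have h1 := norm_W_len h a⁻¹
    rw [len_inv] at h1
    calc _ ≤ ‖W F a⁻¹‖ * ‖W F g - 1‖ * ‖W F a‖ := norm_mul₃_le
      _ ≤ Real.exp (F.len a) * gam F g * Real.exp (F.len a) := by
        have := gam_nonneg (F := F) g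
        gcongr
        · exact le_gam g
        · exact norm_W_len h a
      _ = _ := by rw [two_mul, Real.exp_add]; ring
  refine max_le (key g) ?_
  have := key g⁻¹
  rw [gam_inv] at this
  rwa [mul_inv_rev, mul_inv_rev, inv_inv, ← mul_assoc]

theorem len_le_gam (g : G) : F.len g ≤ gam F g := by
  have key : ∀ g j, F.lam g j ≤ gam F g := fun g j => by
    have h1 : ‖F.V j g‖ ≤ 1 + gam F g := (norm_le_pi_norm (W F g) j).trans (norm_W_le g)
    rw [← h.exp_lam] at h1
    have h2 := Real.add_one_le_exp (gam F g)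
    exact Real.exp_le_exp.1 (by linarith)
  exact h.len_le (gam_nonneg g) (key g) fun j => (key g⁻¹ j).trans_eq (gam_inv g)

theorem gam_le_len (g : G) : gam F g ≤ 1 + Real.exp (F.len g) := by
  have key : ∀ g, ‖W F g - 1‖ ≤ 1 + Real.exp (F.len g) := fun g =>
    (norm_sub_le _ _).trans (by linarith [norm_W_len h g, norm_one_le (F := F)])
  exact max_le (key g) ((key g⁻¹).trans_eq (by rw [len_inv]))

variable [IsTopologicalGroup G]

theorem cont_gam : Continuous (gam F) :=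
  (((cont_W h).sub continuous_const).norm).max
    ((((cont_W h).comp continuous_inv).sub continuous_const).norm)

/-- contraction is exponential in the matrix gauge -/
theorem contr [CompleteSpace k] (a : G) : ∃ C c : ℝ, 1 ≤ C ∧ 0 < c ∧
    ∀ u, Tendsto (fun n : ℕ => (a ^ n)⁻¹ * u * a ^ n) atTop (𝓝 1) →
      ∀ n : ℕ, gam F ((a ^ n)⁻¹ * u * a ^ n) ≤ C * Real.exp (-(c * n)) * gam F u := by
  let T : Al F →L[k] Al F := ContinuousLinearMap.mulLeftRight k (Al F) (W F a⁻¹) (W F a)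
  have hT : ∀ (n : ℕ) u, (T ^ n) (W F u - 1) = W F ((a ^ n)⁻¹ * u * a ^ n) - 1 := by
    intro n u
    induction n with
    | zero => simp
    | succ n ih =>
      rw [pow_succ', ContinuousLinearMap.mul_apply, ih]
      show W F a⁻¹ * _ * W F a = _
      rw [W_conj]
      congr 2
      group
  obtain ⟨C, c, hC, hc, H⟩ := exp_decay T
  have key : ∀ u, Tendsto (fun n : ℕ => (a ^ n)⁻¹ * u * a ^ n) atTop (𝓝 1) → ∀ n : ℕ,
      ‖W F ((a ^ n)⁻¹ * u * a ^ n) - 1‖ ≤ C * Real.exp (-(c * n)) * gam F u := fun u hu n => by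
    rw [← hT]
    refine (H _ ?_ n).trans (mul_le_mul_of_nonneg_left (le_gam u) (by positivity))
    have h1 := ((((cont_W h).tendsto 1).comp hu).sub_const 1)
    rw [map_one, sub_self] at h1
    exact h1.congr fun n => (hT n u).symm
  refine ⟨C, c, hC, hc, fun u hu n => max_le (key u hu n) ?_⟩
  have h1 := hu.inv
  rw [inv_one] at h1
  have h2 := key u⁻¹ (h1.congr fun n => by group) n
  rw [gam_inv] at h2
  rwa [mul_inv_rev, mul_inv_rev, inv_inv, ← mul_assoc]

variable [T2Space G] [ProperSpace k]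

theorem cpt_gam (R : ℝ) : IsCompact {g | gam F g ≤ R} :=
  (h.cpt_len R).of_isClosed_subset (isClosed_le (cont_gam h) continuous_const)
    fun g hg => (len_le_gam h g).trans hg

/-- small balls of the gauge have polynomial volume -/
theorem vol_low [MeasurableSpace G] [BorelSpace G] (μ : Measure G) [μ.IsHaarMeasure] :
    ∃ (c : ℝ) (D : ℕ), 0 < c ∧ ∀ δ, 0 < δ → δ ≤ 1 → c * δ ^ D ≤ μ.real {g | gam F g ≤ δ} := by
  haveI : ProperSpace (Al F) := FiniteDimensional.proper k _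
  obtain ⟨q, T, hq0, hq1, hc⟩ := cover k (Al F)
  let m : ℕ → ENNReal := fun n => ⨆ x, μ {g | gam F g ≤ 1 ∧ W F g ∈ Metric.closedBall x (q ^ n)}
  have h1 : ∀ n, m n ≤ T.card * m (n + 1) := fun n => iSup_le fun x => by
    obtain ⟨c, hcx⟩ := hc x n
    calc _ ≤ μ (⋃ t ∈ T, {g | gam F g ≤ 1 ∧ W F g ∈ Metric.closedBall (c t) (q ^ (n + 1))}) := by
          refine measure_mono fun g hg => ?_
          obtain ⟨t, ht, h2⟩ := mem_iUnion₂.1 (hcx hg.2)
          exact mem_iUnion₂.2 ⟨t, ht, hg.1, h2⟩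
      _ ≤ ∑ t ∈ T, μ {g | gam F g ≤ 1 ∧ W F g ∈ Metric.closedBall (c t) (q ^ (n + 1))} :=
          measure_biUnion_finset_le _ _
      _ ≤ ∑ t ∈ T, m (n + 1) := Finset.sum_le_sum fun t _ => le_iSup
          (fun x => μ {g | gam F g ≤ 1 ∧ W F g ∈ Metric.closedBall x (q ^ (n + 1))}) (c t)
      _ = _ := by rw [Finset.sum_const, nsmul_eq_mul]
  have h2 : ∀ n, m 0 ≤ T.card ^ n * m n := fun n => by
    induction n with
    | zero => simp
    | succ n ih => exact ih.trans (by rw [pow_succ, mul_assoc]; gcongr; exact h1 n)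
  have h3 : μ {g | gam F g ≤ 1} ≤ m 0 := by
    refine le_trans (measure_mono fun g hg => ?_) (le_iSup
      (fun x => μ {g | gam F g ≤ 1 ∧ W F g ∈ Metric.closedBall x (q ^ 0)}) 1)
    exact ⟨hg, by rw [Metric.mem_closedBall, dist_eq_norm, pow_zero]; exact (le_gam g).trans hg⟩
  have h4 : ∀ n, m n ≤ μ {g | gam F g ≤ 4 * q ^ n} := fun n => iSup_le fun x => by
    rcases eq_empty_or_nonempty {g | gam F g ≤ 1 ∧ W F g ∈ Metric.closedBall x (q ^ n)} with
      h0 | ⟨g₀, hg₀⟩
    · rw [h0, measure_empty]; exact zero_le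
    rw [← measure_preimage_mul μ g₀⁻¹ {g | gam F g ≤ 4 * q ^ n}]
    refine measure_mono fun g hg => ?_
    have key : ∀ a b : G, gam F a ≤ 1 → W F a ∈ Metric.closedBall x (q ^ n) →
        W F b ∈ Metric.closedBall x (q ^ n) → ‖W F (a⁻¹ * b) - 1‖ ≤ 4 * q ^ n := by
      intro a b ha hax hbx
      have e : W F (a⁻¹ * b) - 1 = W F a⁻¹ * (W F b - W F a) := by
        rw [mul_sub, ← map_mul, ← map_mul, inv_mul_cancel, map_one]
      have e1 : ‖W F a⁻¹‖ ≤ 2 := by
        have := norm_W_le (F := F) a⁻¹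
        rw [gam_inv] at this; linarith
      have e2 : ‖W F b - W F a‖ ≤ 2 * q ^ n := by
        rw [← dist_eq_norm]
        have := dist_triangle_right (W F b) (W F a) x
        rw [Metric.mem_closedBall] at hax hbx
        linarith
      rw [e]
      calc _ ≤ ‖W F a⁻¹‖ * ‖W F b - W F a‖ := norm_mul_le _ _
        _ ≤ 2 * (2 * q ^ n) := by gcongr
        _ = _ := by ring
    show gam F (g₀⁻¹ * g) ≤ _
    refine max_le (key g₀ g hg₀.1 hg₀.2 hg.2) ?_
    rw [mul_inv_rev, inv_inv]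
    exact key g g₀ hg.1 hg.2 hg₀.2
  have hfin : ∀ R, μ {g | gam F g ≤ R} ≠ ⊤ := fun R => (cpt_gam h R).measure_lt_top.ne
  have hpos : 0 < μ.real {g | gam F g ≤ 1} := by
    refine ENNReal.toReal_pos (fun h0 => ?_) (hfin 1)
    have ho : IsOpen {g | gam F g < 1} := isOpen_lt (cont_gam h) continuous_const
    exact ho.measure_ne_zero μ ⟨1, by simp [gam_one]⟩
      (measure_mono_null (fun g (hg : gam F g < 1) => (hg.le : gam F g ≤ 1)) h0)
  have h5 : ∀ n, μ.real {g | gam F g ≤ 1} ≤ T.card ^ n * μ.real {g | gam F g ≤ 4 * q ^ n} := by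
    intro n
    have e := h3.trans ((h2 n).trans (mul_le_mul_right (h4 n) _))
    have e2 := ENNReal.toReal_mono (ENNReal.mul_ne_top (by simp) (hfin _)) e
    rwa [ENNReal.toReal_mul, ENNReal.toReal_pow, ENNReal.toReal_natCast] at e2
  obtain ⟨D, hD⟩ := pow_unbounded_of_one_lt (T.card : ℝ) (one_lt_inv₀ hq0 |>.2 hq1)
  refine ⟨μ.real {g | gam F g ≤ 1} * (q / 4) ^ D, D, by positivity, fun δ h0 hδ => ?_⟩
  obtain ⟨n, hn1, hn2⟩ := exists_nat_pow_near_of_lt_one (x := δ / 4) (by positivity)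
    (by linarith) hq0 hq1
  have h6 : μ.real {g | gam F g ≤ 4 * q ^ (n + 1)} ≤ μ.real {g | gam F g ≤ δ} :=
    measureReal_mono (fun g (hg : gam F g ≤ _) => (hg.trans (by linarith) : gam F g ≤ δ)) (hfin δ)
  have h7 : (T.card : ℝ) ^ (n + 1) * ((q / 4) ^ D * δ ^ D) ≤ 1 := by
    have e1 : (q / 4) ^ D * δ ^ D ≤ (q ^ (n + 1)) ^ D := by
      rw [← mul_pow]
      refine pow_le_pow_left₀ (by positivity) ?_ _
      rw [pow_succ]; nlinarith
    have e2 : (T.card : ℝ) ^ (n + 1) ≤ (q⁻¹ ^ D) ^ (n + 1) :=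
      pow_le_pow_left₀ (by positivity) hD.le _
    calc _ ≤ (q⁻¹ ^ D) ^ (n + 1) * (q ^ (n + 1)) ^ D := by gcongr
      _ = 1 := by
        rw [← pow_mul, ← pow_mul, mul_comm D, ← mul_pow, inv_mul_cancel₀ hq0.ne', one_pow]
  have h8 := (h5 (n + 1)).trans (mul_le_mul_of_nonneg_left h6 (by positivity))
  have h9 : 0 ≤ μ.real {g | gam F g ≤ δ} := measureReal_nonneg
  calc _ = μ.real {g | gam F g ≤ 1} * ((q / 4) ^ D * δ ^ D) := by ring
    _ ≤ T.card ^ (n + 1) * μ.real {g | gam F g ≤ δ} * ((q / 4) ^ D * δ ^ D) := by gcongr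
    _ = μ.real {g | gam F g ≤ δ} * (T.card ^ (n + 1) * ((q / 4) ^ D * δ ^ D)) := by ring
    _ ≤ _ := mul_le_of_le_one_right h9 h7

end Vale.Agent.P092GD
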