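import Vale.Agent.P092GD.Gam
import Mathlib.Topology.Baire.LocallyCompactRegular
import Mathlib.Topology.Baire.Lemmas

/-!
P092, block GD (helper73): the two contraction groups of a wall element generate the group,
boundedly on compact sets.
-/

set_option linter.all false

open Filter Topology Set Pointwise

namespace Vale.Agent.P092GD

open Vale.Agent.P092GK Vale.Agent.P092GK.FlD

variable {k : Type} [NontriviallyNormedField k] {G : Type} [Group G] {r : ℕ} {F : FlD k G r}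
  [TopologicalSpace G] [IsTopologicalGroup G] (h : Fl F)
include h

/-- the maximal parabolic subgroups are proper -/
theorem not_P (j : Fin r) : ∃ g ∈ F.Ω, g ∉ F.P {j} := by
  by_contra hc
  push Not at hc
  have h1 : ∀ g, g ∈ F.P {j} := fun g =>
    (h.isClosed_P {j}).closure_subset_iff.2 hc (h.dense g)
  have h2 : ∀ z ∈ F.Z, ‖F.V j z‖ ≤ ‖F.Δ j z‖ := fun z hz => by
    refine ContinuousLinearMap.opNorm_le_bound _ (norm_nonneg _) fun x => ?_
    have hx : x ∈ Submodule.span k (Set.range fun g => F.V j g (F.v j)) := by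
      rw [h.span]; trivial
    have : F.V j z x = F.Δ j z • x := by
      induction hx using Submodule.span_induction with
      | mem x hx =>
        obtain ⟨g, rfl⟩ := hx
        obtain ⟨d, hd⟩ := h1 g j (Finset.mem_singleton_self j)
        simp only [hd, map_smul, h.zv z hz]
        exact smul_comm _ _ _
      | zero => simp
      | add x y _ _ hx hy => rw [map_add, hx, hy, smul_add]
      | smul a x _ hx => rw [map_smul, hx, smul_comm]
    rw [this, norm_smul]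
  obtain ⟨C, hC⟩ := h.low
  obtain ⟨n, hn⟩ := exists_nat_gt (C / F.β)
  have hb := F.Z.pow_mem (h.bZ j) n
  have h3 := hC _ (F.Z.inv_mem hb) j
  rw [h.ℓ_inv hb, h.ℓ_pow (h.bZ j), h.bℓ] at h3
  simp only [Pi.neg_apply, Pi.smul_apply, Pi.single_eq_same, smul_eq_mul, neg_neg] at h3
  have h4 := norm_pos_iff.2 (h.Δ_ne (F.Z.inv_mem hb) j)
  have h5 := h2 _ (F.Z.inv_mem hb)
  have h6 := Real.add_one_le_exp (n * F.β)
  rw [div_lt_iff₀ h.β_pos] at hn
  have h7 := norm_nonneg (F.V j (F.b j ^ n)⁻¹)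
  have h8 : 0 ≤ C := by
    by_contra h0
    push Not at h0
    nlinarith [Real.exp_pos (n * F.β)]
  nlinarith

variable [T2Space G] [ProperSpace k]

theorem U'_ne (i : Fin r) : ∃ u ∈ F.U' {i}, u ≠ 1 := by
  by_contra hc
  push Not at hc
  obtain ⟨g, hg, hn⟩ := not_P h i
  obtain ⟨l, hl, u, hu, e⟩ := h.levi' (h.um_mem_Pm (h.lo_mem g hg) {i})
  rw [hc u hu, mul_one] at e
  rw [← F.lo_md_up g, e] at hn
  exact hn ((F.P _).mul_mem ((F.P _).mul_mem (h.L_le_P _ hl) (h.z_mem_P (h.md_mem hg) _))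
    (h.up_mem_P (h.up_mem g hg) _))

/-- a contracted element does not change the conjugacy class -/
theorem conj_of_contr {a u : G} (hu : Tendsto (fun n : ℕ => (a ^ n)⁻¹ * u * a ^ n) atTop (𝓝 1)) :
    ∃ q : G, u * a⁻¹ = q * a⁻¹ * q⁻¹ := by
  obtain ⟨C, c, hC, hc, H⟩ := contr h a
  let p : ℕ → G := fun n => (u * a⁻¹) ^ n * a ^ n
  have h1 : ∀ n, p (n + 1) = p n * ((a ^ n)⁻¹ * u * a ^ n) := fun n => by
    simp only [p]; rw [pow_succ, pow_succ' a]; group
  have h2 : ∀ n, p (n + 1) = u * a⁻¹ * p n * a := fun n => by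
    simp only [p]; rw [pow_succ', pow_succ a]; simp only [mul_assoc]
  have hθ : Real.exp (-c) < 1 := Real.exp_lt_one_iff.2 (by linarith)
  have hA : 0 ≤ C * gam F u / (1 - Real.exp (-c)) :=
    div_nonneg (mul_nonneg (by linarith) (gam_nonneg u)) (by linarith)
  have h3 : ∀ n : ℕ, F.len (p n) ≤ C * gam F u / (1 - Real.exp (-c)) * (1 - Real.exp (-(c * n))) := by
    intro n
    induction n with
    | zero => simp [p, h.len_one]
    | succ n ih =>
      have e1 := (len_le_gam h _).trans (H u hu n)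
      have e2 := h.len_mul (p n) ((a ^ n)⁻¹ * u * a ^ n)
      have e3 : Real.exp (-(c * ((n + 1 : ℕ) : ℝ))) = Real.exp (-(c * n)) * Real.exp (-c) := by
        rw [← Real.exp_add]; push_cast; ring_nf
      have e4 : C * gam F u = C * gam F u / (1 - Real.exp (-c)) * (1 - Real.exp (-c)) := by
        rw [div_mul_cancel₀ _ (by linarith)]
      rw [h1, e3]
      generalize C * gam F u / (1 - Real.exp (-c)) = A at *
      have e5 : C * Real.exp (-(c * n)) * gam F u = A * (1 - Real.exp (-c)) * Real.exp (-(c * n)) := by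
        rw [← e4]; ring
      nlinarith
  obtain ⟨q, -, hq⟩ := (h.cpt_len (C * gam F u / (1 - Real.exp (-c)))).ultrafilter_le_nhds
    ((Ultrafilter.of atTop).map p) (by
      rw [Ultrafilter.coe_map, le_principal_iff, mem_map]
      exact univ_mem' fun n => (h3 n).trans (mul_le_of_le_one_right hA
        (by linarith [Real.exp_pos (-(c * n))])))
  have hq' : Tendsto p (Ultrafilter.of (atTop : Filter ℕ) : Ultrafilter ℕ) (𝓝 q) := hq
  have e1 := hq'.mul (hu.mono_left (Ultrafilter.of_le _))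
  have e2 := (hq'.const_mul (u * a⁻¹)).mul_const a
  have e3 := tendsto_nhds_unique (e1.congr fun n => (h1 n).symm) (e2.congr fun n => (h2 n).symm)
  refine ⟨q, ?_⟩
  rw [mul_one] at e3
  calc u * a⁻¹ = (u * a⁻¹ * q * a) * a⁻¹ * q⁻¹ := by group
    _ = _ := by rw [← e3]

theorem up_lim {c w : G} (hc : c ∈ F.Z) (h0 : ∀ i, 0 < F.ℓ c i) (hw : w ∈ F.Up) :
    Tendsto (fun n : ℕ => (c ^ n)⁻¹ * w * c ^ n) atTop (𝓝 1) := fun N hN => by
  obtain ⟨T, -, hT⟩ := h.up_contr (isCompact_singleton (x := w)) hN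
  have := eventually_all.2 fun i => (h.tendsto_pow hc (h0 i)).eventually_ge_atTop T
  exact this.mono fun n hn => hT _ (F.Z.pow_mem hc n) hn w rfl hw

theorem um_lim {c w : G} (hc : c ∈ F.Z) (h0 : ∀ i, 0 < F.ℓ c i) (hw : w ∈ F.Um) :
    Tendsto (fun n : ℕ => c ^ n * w * (c ^ n)⁻¹) atTop (𝓝 1) := fun N hN => by
  obtain ⟨T, -, hT⟩ := h.um_contr (isCompact_singleton (x := w)) hN
  have := eventually_all.2 fun i => (h.tendsto_pow hc (h0 i)).eventually_ge_atTop T
  exact this.mono fun n hn => hT _ (F.Z.pow_mem hc n) hn w rfl hw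

/-- a normal subgroup which contains `U' {i}` is not inside a parabolic subgroup -/
theorem not_le_P {H : Subgroup G} [hH : H.Normal] {i : Fin r} (hi : F.U' {i} ≤ H) (j : Fin r) :
    ¬ H ≤ F.P {j} := fun hj => by
  have h1 : ∀ u ∈ F.U' {i}, F.V j u = 1 := fun u hu => by
    have e1 : ∀ g ∈ F.Ω, F.V j u (F.V j g (F.v j)) = F.V j g (F.v j) := fun g hg => by
      obtain ⟨d, hd⟩ := hj (hH.conj_mem' u (hi hu) g) j (Finset.mem_singleton_self j)
      have e2 : F.V j u (F.V j g (F.v j)) = d • F.V j g (F.v j) := by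
        rw [← map_smul, ← hd, ← V_mul, ← V_mul]; congr 2; group
      have e3 := h.umφ u (h.U'_le_Um _ hu) j (F.V j g (F.v j))
      rw [e2, map_smul, smul_eq_mul] at e3
      rw [e2, mul_left_eq_self₀.1 e3 |>.resolve_right (hg j), one_smul]
    have e2 : ∀ g, F.V j u (F.V j g (F.v j)) = F.V j g (F.v j) := fun g =>
      (isClosed_eq ((F.V j u).continuous.comp (h.contVv j)) (h.contVv j)).closure_subset_iff.2 e1
        (h.dense g)
    ext x
    have hx : x ∈ Submodule.span k (Set.range fun g => F.V j g (F.v j)) := by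
      rw [h.span]; trivial
    induction hx using Submodule.span_induction with
    | mem x hx => obtain ⟨g, rfl⟩ := hx; exact e2 g
    | zero => simp
    | add x y _ _ hx hy => rw [map_add, map_add, hx, hy]
    | smul a x _ hx => rw [map_smul, map_smul, hx]
  obtain ⟨u, hu, hne⟩ := U'_ne h i
  refine hne (h.U'_inf_P hu fun m hm => ?_)
  obtain rfl := Finset.mem_singleton.1 hm
  refine ⟨_, h.fix_of_bdd (l := atTop) (z := fun n : ℕ => F.b m ^ n)
    (Eventually.of_forall fun n => h.dom_pow (h.b_dom m) n)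
    (h.tendsto_pow (h.bZ m) (by rw [h.bℓ, Pi.single_eq_same]; exact h.β_pos)) (h.cpt_lam j 0)
    (Eventually.of_forall fun n => ?_)⟩
  have e := h.U'_conj (h.z_mem_L (F.Z.inv_mem (F.Z.pow_mem (h.bZ m) n)) {m}) hu
  rw [inv_inv] at e
  show F.lam _ j ≤ 0
  rw [← h.lam_one j, FlD.lam, FlD.lam, h1 _ e, map_one]

/-- a normal subgroup which contains `U' {i}` contains `U⁺` and `U⁻` -/
theorem le_of_normal {s : Fin r → G} {N : ℕ} {τ : ℕ → Fin r} {w : ℕ → G} (hp : Pan F s N τ w)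
    {H : Subgroup G} [hH : H.Normal] {i : Fin r} (hi : F.U' {i} ≤ H) : F.Up ≤ H ∧ F.Um ≤ H := by
  have h1 : ∀ j, s j ∈ H ⊔ F.P Finset.univ := fun j => by
    by_contra hj
    refine not_le_P h hi j (le_sup_left.trans (hp.bn _ _ le_sup_right
      (P_anti (Finset.subset_univ _)) fun m hm => ?_))
    obtain ⟨u, -, v, -, v', -, hu, hv, hv', -, e⟩ := hp.gen m
    have hmj : j ≠ m := fun e => hj (e ▸ hm)
    refine P_anti (θ' := Finset.univ.erase m) (by simpa using hmj) (h.L_le_P _ ?_)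
    rw [e]
    exact Subgroup.mul_mem _ (Subgroup.mul_mem _ hv hu) hv'
  have h2 : F.n₀ ∈ H ⊔ F.P Finset.univ := hp.bn ⊤ _ le_top le_sup_right (fun j _ => h1 j) trivial
  have h3 : F.n₀ ∈ ((H ⊔ F.P Finset.univ : Subgroup G) : Set G) := h2
  rw [Subgroup.normal_mul] at h3
  obtain ⟨x, hx, p, hp', e⟩ := h3
  obtain ⟨z, hz, u, hu, e2⟩ := h.P_univ.1 ((F.P _).inv_mem hp')
  have e3 : x = F.n₀ * (z * u) := by rw [← e2, ← e]; simp
  have ha := h.cb_mem Finset.univ
  set a := F.cb Finset.univ with ha'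
  have hy : F.n₀⁻¹ * a * F.n₀ ∈ F.Z := (h.n₀Z _).2 (by simpa [mul_assoc] using ha)
  have hy' : z⁻¹ * (F.n₀⁻¹ * a * F.n₀) * z⁻¹⁻¹ ∈ F.Z :=
    F.Z.mul_mem (F.Z.mul_mem (F.Z.inv_mem hz) hy) (F.Z.inv_mem (F.Z.inv_mem hz))
  have hℓ : ∀ m, F.ℓ (z⁻¹ * (F.n₀⁻¹ * a * F.n₀) * z⁻¹⁻¹) m = -F.β := fun m => by
    have e4 := h.n₀ℓ _ hy m
    rw [show F.n₀ * (F.n₀⁻¹ * a * F.n₀) * F.n₀⁻¹ = a by group, ha', h.ℓ_cb,
      if_pos (Finset.mem_univ _)] at e4
    rw [h.ℓ_conj (F.Z.inv_mem hz), e4, neg_neg]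
  set a' := z⁻¹ * (F.n₀⁻¹ * a * F.n₀) * z⁻¹⁻¹ with ha2
  have hc : a * a'⁻¹ ∈ F.Z := F.Z.mul_mem ha (F.Z.inv_mem hy')
  have hc0 : ∀ m, 0 < F.ℓ (a * a'⁻¹) m := fun m => by
    rw [h.ℓ_mul ha (F.Z.inv_mem hy'), h.ℓ_inv hy', Pi.add_apply, Pi.neg_apply, hℓ, ha', h.ℓ_cb,
      if_pos (Finset.mem_univ _)]
    linarith [h.β_pos]
  have h4 : u⁻¹ * (a' * u * a'⁻¹) * (a * a'⁻¹)⁻¹ ∈ H := by
    have := H.mul_mem (H.inv_mem hx) (hH.conj_mem x hx a)
    rwa [show x⁻¹ * (a * x * a⁻¹) = u⁻¹ * (a' * u * a'⁻¹) * (a * a'⁻¹)⁻¹ by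
      rw [e3, ha2]; group] at this
  generalize a * a'⁻¹ = c at hc hc0 h4
  obtain ⟨q, hq⟩ := conj_of_contr h (up_lim h hc hc0
    (F.Up.mul_mem (F.Up.inv_mem hu) (h.zup _ hy' u hu)))
  rw [hq] at h4
  have h5 : c⁻¹ ∈ H := by
    have := hH.conj_mem' _ h4 q
    simpa [mul_assoc] using this
  refine ⟨fun v hv => ?_, fun v hv => ?_⟩
  · obtain ⟨q, hq⟩ := conj_of_contr h (up_lim h hc hc0 hv)
    exact (H.mul_mem_cancel_right h5).1 (hq ▸ hH.conj_mem _ h5 q)
  · obtain ⟨q, hq⟩ := conj_of_contr h (a := c⁻¹) (u := v)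
      ((um_lim h hc hc0 hv).congr fun n => by rw [inv_pow, inv_inv])
    exact (H.mul_mem_cancel_right (H.inv_mem h5)).1 (hq ▸ hH.conj_mem _ (H.inv_mem h5) q)

/-- the two contraction groups of a wall element generate -/
theorem gen_top {s : Fin r → G} {N : ℕ} {τ : ℕ → Fin r} {w : ℕ → G} (hp : Pan F s N τ w)
    (hg : Subgroup.closure ((F.Up : Set G) ∪ F.Um) = ⊤) (i : Fin r) :
    Subgroup.closure ((F.U {i} : Set G) ∪ F.U' {i}) = ⊤ := by
  set H := Subgroup.closure ((F.U {i} : Set G) ∪ F.U' {i}) with hH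
  have hU : F.U {i} ≤ H := fun u hu => Subgroup.subset_closure (Or.inl hu)
  have hU' : F.U' {i} ≤ H := fun u hu => Subgroup.subset_closure (Or.inr hu)
  have h0 : ∀ l ∈ F.L {i}, ∀ x ∈ H, l * x * l⁻¹ ∈ H := fun l hl x hx => by
    induction hx using Subgroup.closure_induction with
    | mem x hx => exact hx.elim (fun hx => hU (h.U_conj hl hx)) fun hx => hU' (h.U'_conj hl hx)
    | one => simpa using H.one_mem
    | mul x y _ _ hx hy => simpa [mul_assoc] using H.mul_mem hx hy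
    | inv x _ hx => simpa [mul_assoc] using H.inv_mem hx
  have h1 : ∀ l ∈ F.L {i}, ∀ u ∈ H, ∀ x ∈ H, l * u * x * (l * u)⁻¹ ∈ H := fun l hl u hu x hx => by
    simpa [mul_assoc] using h0 l hl _ (H.mul_mem (H.mul_mem hu hx) (H.inv_mem hu))
  haveI : H.Normal := by
    refine ⟨fun x hx g => ?_⟩
    have hg' : g ∈ Subgroup.closure ((F.Up : Set G) ∪ F.Um) := by rw [hg]; trivial
    induction hg' using Subgroup.closure_induction'' generalizing x with
    | mem g hg =>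
      rcases hg with hg | hg
      · obtain ⟨l, hl, u, hu, rfl⟩ := h.levi (h.up_mem_P hg {i})
        exact h1 l hl u (hU hu) x hx
      · obtain ⟨l, hl, u, hu, rfl⟩ := h.levi' (h.um_mem_Pm hg {i})
        exact h1 l hl u (hU' hu) x hx
    | inv_mem g hg =>
      rcases hg with hg | hg
      · obtain ⟨l, hl, u, hu, e⟩ := h.levi (h.up_mem_P (F.Up.inv_mem hg) {i})
        exact e ▸ h1 l hl u (hU hu) x hx
      · obtain ⟨l, hl, u, hu, e⟩ := h.levi' (h.um_mem_Pm (F.Um.inv_mem hg) {i})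
        exact e ▸ h1 l hl u (hU' hu) x hx
    | one => simpa using hx
    | mul a b _ _ ha hb => simpa [mul_assoc] using ha _ (hb x hx)
  obtain ⟨e1, e2⟩ := le_of_normal h hp hU'
  rw [eq_top_iff, ← hg, Subgroup.closure_le]
  exact union_subset e1 e2

omit h [ProperSpace k] in
/-- bounded generation on compact sets -/
theorem bdd_gen [LocallyCompactSpace G] {K : ℕ → Set G} (hK : ∀ n, IsCompact (K n))
    (hm : Monotone K) (h1 : ∀ n, 1 ∈ K n) (hi : ∀ n, ∀ x ∈ K n, x⁻¹ ∈ K n)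
    (hg : Subgroup.closure (⋃ n, K n) = ⊤) {Q : Set G} (hQ : IsCompact Q) :
    ∃ m : ℕ, ∀ g ∈ Q, ∃ l : List G, l.length = m ∧ l.prod = g ∧ ∀ u ∈ l, u ∈ K m := by
  have hc : ∀ n m, IsCompact (K n ^ m) := fun n m => by
    induction m with
    | zero => exact isCompact_singleton
    | succ m ih => rw [pow_succ]; exact ih.mul (hK n)
  have hmon : ∀ n m, n ≤ m → K n ^ n ⊆ K m ^ m := fun n m hnm =>
    Set.pow_subset_pow (hm hnm) (h1 m) hnm
  have hmul : ∀ n m, K n ^ n * K m ^ m ⊆ K (n + m) ^ (n + m) := fun n m => by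
    rw [pow_add]
    exact Set.mul_subset_mul (Set.pow_subset_pow_left (hm (Nat.le_add_right n m)))
      (Set.pow_subset_pow_left (hm (Nat.le_add_left m n)))
  have hone : ∀ n, ∀ x ∈ K n, x ∈ K (n + 1) ^ (n + 1) := fun n x hx =>
    Set.pow_subset_pow (hm n.le_succ) (h1 _) (Nat.le_add_left 1 n) (by rwa [pow_one])
  have hall : ∀ g, ∃ n, g ∈ K n ^ n := fun g => by
    have hg' : g ∈ Subgroup.closure (⋃ n, K n) := by rw [hg]; trivial
    induction hg' using Subgroup.closure_induction'' with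
    | mem x hx => obtain ⟨n, hn⟩ := mem_iUnion.1 hx; exact ⟨_, hone n x hn⟩
    | inv_mem x hx => obtain ⟨n, hn⟩ := mem_iUnion.1 hx; exact ⟨_, hone n _ (hi n x hn)⟩
    | one => exact ⟨0, rfl⟩
    | mul a b _ _ ha hb =>
      obtain ⟨n, hn⟩ := ha
      obtain ⟨m, hm⟩ := hb
      exact ⟨_, hmul n m (Set.mul_mem_mul hn hm)⟩
  obtain ⟨n, x, hx⟩ := nonempty_interior_of_iUnion_of_closed (f := fun n => K n ^ n)
    (fun n => (hc n n).isClosed) (eq_univ_of_forall fun g => mem_iUnion.2 (hall g))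
  obtain ⟨T, hT⟩ := hQ.elim_finite_subcover (fun t : G => (fun g => t⁻¹ * g) ⁻¹' interior (K n ^ n))
    (fun t => isOpen_interior.preimage (by fun_prop))
    (fun g _ => mem_iUnion.2 ⟨g * x⁻¹, by simpa using hx⟩)
  choose e he using hall
  refine ⟨T.sup e + n, fun g hg => ?_⟩
  obtain ⟨t, ht, h2⟩ := mem_iUnion₂.1 (hT hg)
  have h3 : g ∈ K (T.sup e + n) ^ (T.sup e + n) := by
    have := hmul _ n (Set.mul_mem_mul (hmon _ _ (Finset.le_sup ht) (he t)) (interior_subset h2))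
    rwa [mul_inv_cancel_left] at this
  obtain ⟨f, hf⟩ := Set.mem_pow.1 h3
  refine ⟨_, List.length_ofFn, hf, fun u hu => ?_⟩
  obtain ⟨j, rfl⟩ := List.mem_ofFn.1 hu
  exact (f j).2

/-- bounded generation by the contraction groups of the wall element `b i` -/
theorem bdd_gen_U [LocallyCompactSpace G] {i : Fin r}
    (hg : Subgroup.closure ((F.U {i} : Set G) ∪ F.U' {i}) = ⊤) {Q : Set G} (hQ : IsCompact Q) :
    ∃ m : ℕ, ∀ g ∈ Q, ∃ l : List G, l.length = m ∧ l.prod = g ∧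
      ∀ u ∈ l, (u ∈ F.U {i} ∨ u ∈ F.U' {i}) ∧ F.len u ≤ m := by
  refine bdd_gen (K := fun n => {u | (u ∈ F.U {i} ∨ u ∈ F.U' {i}) ∧ F.len u ≤ n}) (fun n => ?_)
    (fun n m hnm u hu => ⟨hu.1, hu.2.trans (by exact_mod_cast hnm)⟩)
    (fun n => ⟨Or.inl (one_mem _), by rw [h.len_one]; positivity⟩)
    (fun n x hx => ⟨hx.1.imp inv_mem inv_mem, by rw [len_inv]; exact hx.2⟩) ?_ hQ
  · exact (h.cpt_len n).inter_left ((h.isClosed_U _).union (h.isClosed_U' _))
  · rw [eq_top_iff, ← hg]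
    refine Subgroup.closure_mono fun u hu => ?_
    obtain ⟨n, hn⟩ := exists_nat_ge (F.len u)
    exact mem_iUnion.2 ⟨n, hu, hn⟩

end Vale.Agent.P092GD
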