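import Vale.Agent.P092GD.Gen

/-!
P092, block GD (helper73): ping-pong on the flag spaces and Higson functions without an invariant
mean.
-/

set_option linter.all false

open Filter Topology Set

namespace Vale.Agent.P092GD

open Vale.Agent.P092GK Vale.Agent.P092GK.FlD

/-- a cutoff -/
noncomputable def cut (e s : ℝ) : ℝ := max 0 (min 1 (2 - 2 * s / e))

theorem cut_nonneg (e s : ℝ) : 0 ≤ cut e s := le_max_left _ _

theorem cut_le (e s : ℝ) : cut e s ≤ 1 := max_le zero_le_one (min_le_left _ _)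

theorem cut_one {e s : ℝ} (he : 0 < e) (hs : s ≤ e / 2) : cut e s = 1 := by
  have : 2 * s / e ≤ 1 := by rw [div_le_one he]; linarith
  rw [cut, min_eq_left (by linarith), max_eq_right zero_le_one]

theorem cut_zero {e s : ℝ} (he : 0 < e) (hs : e ≤ s) : cut e s = 0 := by
  have : 2 ≤ 2 * s / e := by rw [le_div_iff₀ he]; linarith
  exact max_eq_left ((min_le_right _ _).trans (by linarith))

theorem cut_lip {e : ℝ} (he : 0 < e) (s t : ℝ) : |cut e s - cut e t| ≤ 2 / e * |s - t| := by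
  have h1 := abs_max_sub_max_le_max 0 (min 1 (2 - 2 * s / e)) 0 (min 1 (2 - 2 * t / e))
  have h2 := abs_min_sub_min_le_max 1 (2 - 2 * s / e) 1 (2 - 2 * t / e)
  rw [sub_self, abs_zero] at h1 h2
  refine h1.trans ((max_le (abs_nonneg _) le_rfl).trans (h2.trans
    ((max_le (abs_nonneg _) le_rfl).trans_eq ?_)))
  rw [show 2 - 2 * s / e - (2 - 2 * t / e) = 2 / e * (t - s) by ring, abs_mul,
    abs_of_pos (by positivity), abs_sub_comm]

theorem cont_cut (e : ℝ) : Continuous (cut e) := by unfold cut; fun_prop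

theorem ratio_lip {a a' S S' B B' : ℝ} (h0 : 0 ≤ a') (h1 : a' ≤ S') (hS : 0 < S) (hS' : 0 < S')
    (ha : |a' - a| ≤ B) (hb : |S' - S| ≤ B') : |a' / S' - a / S| ≤ (B + B') / S := by
  have e : a' / S' - a / S = ((a' - a) - a' / S' * (S' - S)) / S := by field_simp; ring
  have h2 : |a' / S' * (S' - S)| ≤ B' := by
    rw [abs_mul, abs_of_nonneg (div_nonneg h0 hS'.le)]
    exact (mul_le_of_le_one_left (abs_nonneg _) ((div_le_one hS').2 h1)).trans hb
  rw [e, abs_div, abs_of_pos hS]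
  exact div_le_div_of_nonneg_right ((abs_sub _ _).trans (add_le_add ha h2)) hS.le

variable {k : Type} [NontriviallyNormedField k] {G : Type} [Group G] {r : ℕ} {F : FlD k G r}

theorem dj_tri (j : Fin r) (x y z : G) : F.dj j x z ≤ F.dj j x y + F.dj j y z := pd_triangle _ _ _

theorem dj_abs (j : Fin r) (x y z : G) : |F.dj j x z - F.dj j y z| ≤ F.dj j x y := by
  have h1 := dj_tri (F := F) j x y z
  have h2 := dj_tri (F := F) j y x z
  rw [dj_comm j y x] at h2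
  exact abs_le.2 ⟨by linarith, by linarith⟩

variable [TopologicalSpace G] [IsTopologicalGroup G] (h : Fl F)
include h

/-- a neighbourhood of the base flag is contracted to the base flag -/
theorem near_one (j : Fin r) : ∃ e : ℝ, 0 < e ∧ ∀ ε, 0 < ε → ∃ z : G, ∀ x, F.dj j x 1 ≤ e →
    F.dj j (z * x) 1 ≤ ε := by
  obtain ⟨a, ha0, ha1⟩ := NormedField.exists_norm_lt k (r := 1 / (‖F.φ j‖ + 1)) (by positivity)
  have hv := norm_pos_iff.2 (h.v_ne j)
  have h1 : ‖a • F.φ j‖ ≤ 1 := by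
    rw [lt_div_iff₀ (by positivity)] at ha1
    refine (norm_smul_le a (F.φ j)).trans (by nlinarith)
  obtain ⟨C, hC, H⟩ := h.dj_dom
  refine ⟨‖a‖ / ‖F.v j‖ / 2, by positivity, fun ε hε => ?_⟩
  obtain ⟨T, -, hT⟩ := Fl.exp_small (C * (2 * ‖F.v j‖)) hε
  obtain ⟨n, hn⟩ := ((h.tendsto_pow (h.bZ j) (j := j)
    (by rw [h.bℓ, Pi.single_eq_same]; exact h.β_pos)).eventually_ge_atTop T).exists
  refine ⟨F.b j ^ n, fun x hx => ?_⟩
  have h2 := (abs_le.1 ((le_pd _ h1 _ _).trans hx)).1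
  have hx0 := norm_pos_iff.2 (h.Vv_ne j x)
  simp only [ContinuousLinearMap.smul_apply, norm_smul, V_one, h.φv, norm_one, mul_one] at h2
  have h3 : ‖a‖ / ‖F.v j‖ / 2 ≤ ‖a‖ * ‖F.Δ j x‖ / ‖F.V j x (F.v j)‖ := by
    rw [FlD.Δ]; linarith
  rw [div_div, div_le_div_iff₀ (by positivity) hx0] at h3
  have h4 : ‖F.V j x (F.v j)‖ ≤ ‖F.Δ j x‖ * (2 * ‖F.v j‖) := by nlinarith
  have h5 : 0 < ‖F.Δ j x‖ := by
    by_contra h0
    have : ‖F.Δ j x‖ = 0 := le_antisymm (not_lt.1 h0) (norm_nonneg _)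
    rw [this] at h4; linarith
  refine (H _ (h.dom_pow (h.b_dom j) n) x j (norm_pos_iff.1 h5)).trans (le_trans ?_ (hT _ hn))
  rw [mul_right_comm]
  gcongr
  rwa [div_le_iff₀' h5]

variable [T2Space G] [ProperSpace k]

/-- infinitely many flags -/
theorem exists_pts (j : Fin r) : ∃ p : ℕ → G, ∀ m m', m ≠ m' → 0 < F.dj j (p m) (p m') := by
  obtain ⟨g, hg, hn⟩ := not_P h j
  let d : ℕ → ℝ := fun n => F.dj j (F.b j ^ n * g) 1
  have h0 : ∀ n, 0 < d n := fun n => lt_of_le_of_ne (pd_nonneg _ _) fun e => by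
    obtain ⟨c, hc⟩ := pd_eq_zero (h.Vv_ne j 1) ((pd_comm _ _).trans e.symm)
    refine hn (((F.P _).mul_mem_cancel_left (h.z_mem_P (F.Z.pow_mem (h.bZ j) n) _)).1 fun m hm => ?_)
    obtain rfl := Finset.mem_singleton.1 hm
    exact ⟨c, by rw [hc, V_one]⟩
  have hinf : (range d).Infinite := fun hf => by
    obtain ⟨_, ⟨n₀, rfl⟩, hmin⟩ := hf.exists_minimal (range_nonempty d)
    obtain ⟨C, hC, H⟩ := h.dj_dom
    obtain ⟨T, -, hT⟩ := Fl.exp_small (C * (‖F.V j g (F.v j)‖ / ‖F.Δ j g‖)) (half_pos (h0 n₀))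
    obtain ⟨n, hn⟩ := ((h.tendsto_pow (h.bZ j) (j := j)
      (by rw [h.bℓ, Pi.single_eq_same]; exact h.β_pos)).eventually_ge_atTop T).exists
    have h1 : d n ≤ d n₀ / 2 := (H _ (h.dom_pow (h.b_dom j) n) g j (hg j)).trans
      (le_trans (le_of_eq (by ring)) (hT _ hn))
    have h2 := hmin (mem_range_self n) (by linarith [h0 n₀])
    linarith [h0 n₀]
  have e := hinf.natEmbedding
  choose c hc using fun m => (e m).2
  refine ⟨fun m => F.b j ^ c m * g, fun m m' hm => lt_of_lt_of_le ?_ (dj_abs j _ _ 1)⟩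
  refine abs_pos.2 (sub_ne_zero.2 fun e2 => hm (e.injective (Subtype.ext ?_)))
  rw [← hc, ← hc]; exact e2

/-- **ping-pong** on the flag space of type `j` -/
theorem ping (j : Fin r) {C : Set G} (hC : IsCompact C) : ∃ (ι : Type) (_ : Fintype ι)
    (φ : ι → G → ℝ) (g : ι → G) (L : ℝ), 0 < L ∧ (∀ i, Continuous (φ i)) ∧
      (∀ i x, 0 ≤ φ i x ∧ φ i x ≤ 1) ∧ (∀ i x y, |φ i x - φ i y| ≤ L * F.dj j x y) ∧
      ∀ y ∈ C, 2 ≤ ∑ i, (φ i y - φ i ((g i)⁻¹ * y)) := by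
  obtain ⟨e, he, H⟩ := near_one h j
  obtain ⟨A, hA, hA'⟩ := h.dj_lip
  obtain ⟨p, hp⟩ := exists_pts h j
  have hc : ∀ t : G, Continuous fun y => F.dj j (t⁻¹ * y) 1 := fun t =>
    (h.cont_dj j).comp (f := fun y => (t⁻¹ * y, 1)) (by fun_prop)
  obtain ⟨T, hT⟩ := hC.elim_finite_subcover (fun t : G => {y | F.dj j (t⁻¹ * y) 1 < e / 2})
    (fun t => isOpen_lt (hc t) continuous_const) fun y _ => mem_iUnion.2 ⟨y, by
      show F.dj j (y⁻¹ * y) 1 < e / 2
      rw [inv_mul_cancel, FlD.dj, pd_self]; positivity⟩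
  obtain ⟨δ, hδ, -, hδ'⟩ := cpt_low (isCompact_singleton (x := ()))
    (fun (q : {q : Fin (T.card + 2) × Fin (T.card + 2) // q.1 ≠ q.2}) _ => F.dj j (p q.1.1) (p q.1.2))
    (fun _ => continuousOn_const) fun q _ _ => hp _ _ fun e => q.2 (Fin.ext e)
  obtain ⟨B, hB, hB'⟩ := cpt_up (isCompact_singleton (x := ()))
    (fun (m : Fin (T.card + 2)) _ => A * Real.exp (2 * F.len (p m))) fun _ => continuousOn_const
  obtain ⟨D, hD, hD'⟩ := cpt_up (isCompact_singleton (x := ()))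
    (fun (t : T) _ => A * Real.exp (2 * F.len (t : G)⁻¹)) fun _ => continuousOn_const
  obtain ⟨z, hz⟩ := H (δ / (3 * B)) (by positivity)
  refine ⟨T × Fin (T.card + 2), inferInstance, fun i y => cut e (F.dj j ((i.1 : G)⁻¹ * y) 1),
    fun i => p i.2 * z * (i.1 : G)⁻¹, 2 / e * D, by positivity,
    fun i => (cont_cut e).comp (hc _), fun i x => ⟨cut_nonneg _ _, cut_le _ _⟩, fun i x y => ?_,
    fun y hy => ?_⟩
  · refine (cut_lip he _ _).trans ?_
    rw [mul_assoc]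
    refine mul_le_mul_of_nonneg_left ((dj_abs j _ _ _).trans ((hA' j _ x y).trans ?_)) (by positivity)
    exact mul_le_mul_of_nonneg_right (hD' i.1 () rfl) (pd_nonneg _ _)
  · have h1 : 1 ≤ ∑ t : T, cut e (F.dj j ((t : G)⁻¹ * y) 1) := by
      obtain ⟨t, ht, h2⟩ := mem_iUnion₂.1 (hT hy)
      have h3 : F.dj j (t⁻¹ * y) 1 < e / 2 := h2
      have h4 := Finset.single_le_sum (f := fun t : T => cut e (F.dj j ((t : G)⁻¹ * y) 1))
        (fun _ _ => cut_nonneg _ _) (Finset.mem_univ ⟨t, ht⟩)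
      have h5 : cut e (F.dj j (t⁻¹ * y) 1) = 1 := cut_one he h3.le
      exact h5.symm.le.trans h4
    have h3 : ∀ m : Fin (T.card + 2), cut e (F.dj j (z⁻¹ * ((p m)⁻¹ * y)) 1) ≠ 0 →
        F.dj j y (p m) ≤ δ / 3 := fun m hm => by
      have h4 := hz _ (not_lt.1 fun h5 => hm (cut_zero he h5.le))
      have h5 := hA' j (p m) ((p m)⁻¹ * y) 1
      rw [mul_inv_cancel_left] at h4
      rw [mul_inv_cancel_left, mul_one] at h5
      refine h5.trans ((mul_le_mul (hB' m () rfl) h4 (pd_nonneg _ _) (by linarith)).trans_eq ?_)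
      field_simp
    have h2 : ∑ m : Fin (T.card + 2), cut e (F.dj j (z⁻¹ * ((p m)⁻¹ * y)) 1) ≤ 1 := by
      by_cases h0 : ∃ m : Fin (T.card + 2), cut e (F.dj j (z⁻¹ * ((p m)⁻¹ * y)) 1) ≠ 0
      · obtain ⟨m, hm⟩ := h0
        rw [Finset.sum_eq_single m (fun m' _ hm' => by_contra fun h4 => ?_) (by simp)]
        · exact cut_le _ _
        · have h5 := hδ' ⟨(m', m), hm'⟩ () rfl
          have h6 := dj_tri (F := F) j (p m') y (p m)
          rw [dj_comm j (p m') y] at h6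
          linarith [h3 m hm, h3 m' h4]
      · push Not at h0
        simp [h0]
    have e1 : ∀ (t : G) (m : ℕ), t⁻¹ * ((p m * z * t⁻¹)⁻¹ * y) = z⁻¹ * ((p m)⁻¹ * y) :=
      fun t m => by group
    simp only [e1]
    rw [Finset.sum_sub_distrib, Fintype.sum_prod_type, Fintype.sum_prod_type]
    simp only [Finset.sum_const, Finset.card_univ, Fintype.card_fin, Fintype.card_coe, nsmul_eq_mul,
      ← Finset.mul_sum]
    push_cast
    have := (Nat.cast_nonneg T.card : (0 : ℝ) ≤ T.card)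
    nlinarith

/-- the slowly varying partition of unity of the chamber -/
theorem slow [MeasurableSpace G] [BorelSpace G] {C : Set G} {kl kr : G → G} {t : G → Fin r → ℤ}
    (hK : Kak F C kl t kr) : ∃ p : Fin r → G → ℝ, (∀ j, Measurable (p j)) ∧
      (∀ j x, 0 ≤ p j x ∧ p j x ≤ 1) ∧ (∃ L, IsCompact L ∧ ∀ x ∉ L, ∑ j, p j x = 1) ∧
      ∀ j (φ : G → ℝ) (L : ℝ), 0 < L → (∀ x, 0 ≤ φ x ∧ φ x ≤ 1) →
        (∀ x y, |φ x - φ y| ≤ L * F.dj j x y) → ∀ ε R : ℝ, 0 < ε → ∃ Q, IsCompact Q ∧ ∀ x ∉ Q,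
          ∀ s u, F.len s ≤ R → F.len u ≤ R →
            |p j (s * x * u) * φ (kl (s * x * u)) - p j x * φ (s * kl x)| ≤ ε := by
  obtain ⟨C₀, hC₀, hlow⟩ := h.κ_low
  obtain ⟨C₁, hC₁, hlip⟩ := h.κ_lip
  obtain ⟨A, hA, hA'⟩ := h.flag_equiv hK
  let a : Fin r → G → ℝ := fun j x => F.κ x j + C₀
  let S : G → ℝ := fun x => ∑ j, a j x
  have ha : ∀ j x, 0 ≤ a j x := fun j x => by simp only [a]; linarith [hlow x j]
  have haS : ∀ j x, a j x ≤ S x := fun j x =>
    Finset.single_le_sum (f := fun j => a j x) (fun j _ => ha j x) (Finset.mem_univ j)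
  have hS0 : ∀ x, 0 ≤ S x := fun x => Finset.sum_nonneg fun j _ => ha j x
  have hca : ∀ j, Continuous (a j) := fun j =>
    ((continuous_apply j).comp h.cont_κ).add continuous_const
  have hcS : Continuous S := continuous_finset_sum _ fun j _ => hca j
  have hS : ∀ R, ∀ x ∉ {g | ‖F.κ g‖ ≤ R + C₀}, R < S x := fun R x hx => by
    by_contra h0
    refine hx ((pi_norm_le_iff_of_nonneg (by linarith [hS0 x])).2 fun j => abs_le.2 ⟨?_, ?_⟩)
    · linarith [hlow x j, hS0 x]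
    · have := haS j x
      simp only [a] at this
      linarith
  have hp : ∀ j x, 0 ≤ a j x / S x ∧ a j x / S x ≤ 1 := fun j x =>
    ⟨div_nonneg (ha j x) (hS0 x), div_le_one_of_le₀ (haS j x) (hS0 x)⟩
  refine ⟨fun j x => a j x / S x, fun j => (hca j).measurable.div hcS.measurable, hp,
    ⟨_, h.cpt_κ (0 + C₀), fun x hx => by
      simp only [div_eq_mul_inv]; rw [← Finset.sum_mul]; exact mul_inv_cancel₀ (hS 0 x hx).ne'⟩,
    fun j φ L hL hφ hφ' ε R hε => ?_⟩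
  obtain ⟨T, hT0, hT⟩ := Fl.exp_small (L * A) (half_pos hε)
  refine ⟨_, h.cpt_κ ((r * (C₁ * (2 * |R|)) + (1 + r) * (C₁ * (2 * |R|)) * (2 / ε) +
    (T + 4 * |R| + C₀) * (2 / ε)) + C₀), fun x hx s u hs hu => ?_⟩
  have hx' := hS _ x hx
  have hR := le_abs_self R
  have hR0 := abs_nonneg R
  generalize |R| = R' at *
  have hr : (0 : ℝ) ≤ r := Nat.cast_nonneg r
  have h1 : ∀ m, |a m (s * x * u) - a m x| ≤ C₁ * (2 * R') := fun m => by
    have e1 := (norm_le_pi_norm (F.κ (s * x * u) - F.κ x) m).trans (hlip s x u)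
    simp only [a, add_sub_add_right_eq_sub]
    exact le_trans e1 (by gcongr; linarith)
  have h2 : |S (s * x * u) - S x| ≤ r * (C₁ * (2 * R')) := by
    simp only [S]
    rw [← Finset.sum_sub_distrib]
    refine (Finset.abs_sum_le_sum_abs _ _).trans ((Finset.sum_le_sum fun m _ => h1 m).trans_eq ?_)
    simp
  have hB : 0 ≤ C₁ * (2 * R') := by positivity
  generalize C₁ * (2 * R') = B at *
  have e1 : 0 ≤ r * B := by positivity
  have e2 : 0 ≤ (1 + r) * B * (2 / ε) := by positivity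
  have e3 : 0 ≤ (T + 4 * R' + C₀) * (2 / ε) := by positivity
  have hSx : 0 < S x := by linarith
  have h3 := ratio_lip (ha j _) (haS j _) hSx (by linarith [(abs_le.1 h2).1]) (h1 j) h2
  have h4 : (B + r * B) / S x ≤ ε / 2 := by
    rw [div_le_iff₀ hSx]
    have : (1 + r) * B * (2 / ε) ≤ S x := by linarith
    rw [← mul_div_assoc, div_le_iff₀ hε] at this
    linarith
  have h5 : a j x / S x * |φ (kl (s * x * u)) - φ (s * kl x)| ≤ ε / 2 := by
    rcases le_or_gt (a j x / S x) (ε / 2) with h6 | h6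
    · refine (mul_le_of_le_one_right (hp j x).1 (abs_le.2 ⟨?_, ?_⟩)).trans h6 <;>
        linarith [hφ (kl (s * x * u)), hφ (s * kl x)]
    · refine (mul_le_of_le_one_left (abs_nonneg _) (hp j x).2).trans ?_
      have h7 : T + 4 * R' ≤ F.κ x j := by
        have : (T + 4 * R' + C₀) * (2 / ε) ≤ S x := by linarith
        rw [← mul_div_assoc, div_le_iff₀ hε] at this
        rw [lt_div_iff₀ hSx] at h6
        simp only [a] at h6
        linarith
      have h8 := hA' {j} s x u (T + 4 * R') fun m hm => by rwa [Finset.mem_singleton.1 hm]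
      have h9 : F.dj j (s * kl x) (kl (s * x * u)) ≤ A * Real.exp (-T) :=
        ((dj_le_dP (Finset.mem_singleton_self j) _ _).trans h8).trans (by gcongr; linarith)
      rw [abs_sub_comm]
      refine (hφ' _ _).trans (le_trans ?_ (hT T le_rfl))
      rw [mul_assoc L]
      gcongr
  have e4 : a j (s * x * u) / S (s * x * u) * φ (kl (s * x * u)) - a j x / S x * φ (s * kl x) =
      (a j (s * x * u) / S (s * x * u) - a j x / S x) * φ (kl (s * x * u)) +
        a j x / S x * (φ (kl (s * x * u)) - φ (s * kl x)) := by ring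
  rw [e4]
  refine (abs_add_le _ _).trans ?_
  rw [abs_mul, abs_mul, abs_of_nonneg (hp j x).1, abs_of_nonneg (hφ _).1]
  linarith [mul_le_of_le_one_right (abs_nonneg (a j (s * x * u) / S (s * x * u) - a j x / S x))
    (hφ (kl (s * x * u))).2]

/-- **Higson functions without an invariant mean.** -/
theorem nim_core [MeasurableSpace G] [BorelSpace G] [LocallyCompactSpace G]
    [SecondCountableTopology G] : ∃ (ι : Type) (_ : Fintype ι) (f : ι → G → ℝ) (g : ι → G)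
      (L : Set G), IsCompact L ∧ (∀ i, Measurable (f i)) ∧ (∀ i x, |f i x| ≤ 1) ∧
      (∀ i (ε R : ℝ), 0 < ε → ∃ Q, IsCompact Q ∧ ∀ x ∉ Q, ∀ s, F.len s ≤ R →
        |f i (x * s) - f i x| ≤ ε) ∧ ∀ x ∉ L, 1 ≤ ∑ i, (f i ((g i)⁻¹ * x) - f i x) := by
  obtain ⟨C, kl, t, kr, hK⟩ := h.exists_kak
  obtain ⟨p, hpm, hp, ⟨L₀, hL₀, hsum⟩, H⟩ := slow h hK
  choose ι iι φ g L hL hc hφ hφ' hping using fun j => ping h j hK.cpt
  have hN : (0 : ℝ) < 1 / (Fintype.card (Σ j, ι j) + 1) := by positivity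
  choose Q hQ hQ' using fun i : Σ j, ι j => H i.1 (φ i.1 i.2) _ (hL i.1) (hφ i.1 i.2) (hφ' i.1 i.2)
    _ (F.len (g i.1 i.2)⁻¹) hN
  refine ⟨Σ j, ι j, inferInstance, fun i x => -(p i.1 x * φ i.1 i.2 (kl x)), fun i => g i.1 i.2,
    L₀ ∪ ⋃ i, Q i, hL₀.union (isCompact_iUnion hQ),
    fun i => ((hpm i.1).mul ((hc i.1 i.2).measurable.comp hK.meas_kl)).neg, fun i x => ?_,
    fun i ε R hε => ?_, fun x hx => ?_⟩
  · rw [abs_neg, abs_of_nonneg (mul_nonneg (hp _ _).1 (hφ _ _ _).1)]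
    exact mul_le_one₀ (hp _ _).2 (hφ _ _ _).1 (hφ _ _ _).2
  · obtain ⟨Q, hQ, hQ'⟩ := H i.1 (φ i.1 i.2) _ (hL i.1) (hφ i.1 i.2) (hφ' i.1 i.2) ε R hε
    refine ⟨Q, hQ, fun x hx s hs => ?_⟩
    have := hQ' x hx 1 s (h.len_one.trans_le ((len_nonneg s).trans hs)) hs
    rwa [one_mul, one_mul, ← abs_neg, neg_sub', ] at this
  · have hx0 : x ∉ L₀ := fun e => hx (Or.inl e)
    have h1 : ∀ i : Σ j, ι j, p i.1 x * (φ i.1 i.2 (kl x) - φ i.1 i.2 ((g i.1 i.2)⁻¹ * kl x)) -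
        1 / (Fintype.card (Σ j, ι j) + 1) ≤ -(p i.1 ((g i.1 i.2)⁻¹ * x) *
          φ i.1 i.2 (kl ((g i.1 i.2)⁻¹ * x))) - -(p i.1 x * φ i.1 i.2 (kl x)) := fun i => by
      have := hQ' i x (fun e => hx (Or.inr (mem_iUnion.2 ⟨i, e⟩))) _ 1 le_rfl
        (h.len_one.trans_le (len_nonneg _))
      rw [mul_one] at this
      linarith [(abs_le.1 this).2]
    refine le_trans ?_ (Finset.sum_le_sum fun i _ => h1 i)
    rw [Finset.sum_sub_distrib, Finset.sum_const, Finset.card_univ, nsmul_eq_mul, Fintype.sum_sigma]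
    have h2 : ∑ j, p j x * 2 ≤ ∑ j, ∑ i, p j x * (φ j i (kl x) - φ j i ((g j i)⁻¹ * kl x)) :=
      Finset.sum_le_sum fun j _ => by
        rw [← Finset.mul_sum]
        exact mul_le_mul_of_nonneg_left (hping j _ (hK.kl_mem x)) (hp j x).1
    rw [← Finset.sum_mul, hsum x hx0] at h2
    have h3 : (Fintype.card (Σ j, ι j) : ℝ) * (1 / (Fintype.card (Σ j, ι j) + 1)) ≤ 1 := by
      rw [mul_one_div, div_le_one (by positivity)]; linarith
    linarith

end Vale.Agent.P092GD
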